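import Vale.Agent.P070ZA.Hs
import Vale.Agent.P070Z41.Foot

/-!
# An injective symmetric map has dense range
-/

set_option linter.unusedSectionVars false

namespace Vale.Agent.P070Z.S5

open Vale.Agent.P129B

universe v

variable {N : Type v} [ZM N] {R K : Type*} [Nm K R] [Field R] [LinearOrder R]
  [IsStrictOrderedRing R] [Field K] [Algebra R K] [KA R K] [StarRing K] [CX R K]
  [Coded N R] [RF N R] [Coded N K] [KF N R K]
  {L : Type*} [AddCommGroup L] [Module K L] [Nm L R] [Ip L K] [IA R K L] [Coded N L] [HS N R K L]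

theorem isIP : P070Z41.IsIP (ip : L → L → K) where
  add := ip_add_right
  smul := ip_smul_right
  conj x y := by rw [← CX.star_eq, star_ip]
  self := ip_self

/-- The closure of an internal subspace is an internal subspace. -/
theorem isISub_icl {V : Set L} (hV : IsISub N K V) : IsISub N K (icl V) where
  intl := by have := hV.intl; infer_instance
  zero := sub_icl _ hV.zero
  add x hx y hy ε hε := by
    obtain ⟨a, ha, h1⟩ := hx (ε / 2) (half_pos hε)
    obtain ⟨b, hb, h2⟩ := hy (ε / 2) (half_pos hε)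
    refine ⟨a + b, hV.add a ha b hb, ?_⟩
    have : x + y - (a + b) = (x - a) + (y - b) := by abel
    rw [this]
    linarith [nm_add_le (x - a) (y - b)]
  smul c x hx := map_icl (f := fun x : L => c • x) (C := nm c)
    (fun x y => by rw [← smul_sub, nm_smul]) (fun y hy => sub_icl _ (hV.smul c y hy)) hx

/-- A definable linear symmetric injective map has dense range. -/
theorem dense_range {T : L → L} (hT : DefF N T) (add : ∀ x y, T (x + y) = T x + T y)
    (smul : ∀ (c : K) x, T (c • x) = c • T x) (sa : ∀ x y, ip (T x) y = ip x (T y))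
    (inj : ∀ y, T y = 0 → y = 0) (v : L) {ε : R} (hε : 0 < ε) : ∃ w, nm (v - T w) < ε := by
  have hV : IsISub N K {y : L | ∃ w, T w = y} :=
    { intl := intl_setOfT (by fun_prop)
      zero := ⟨0, by simpa using smul 0 0⟩
      add := by
        rintro _ ⟨a, rfl⟩ _ ⟨b, rfl⟩
        exact ⟨a + b, add a b⟩
      smul := by
        rintro c _ ⟨a, rfl⟩
        exact ⟨c • a, smul c a⟩ }
  obtain ⟨p, hp, h⟩ := P070Z41.exists_foot isIP (isISub_icl hV)
    (fun x hx => cld_icl _ hx) v
  have h1 : T (v - p) = 0 := ext_ip_left fun w => by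
    rw [← sa, ip_zero_right]
    exact h _ (sub_icl _ ⟨w, rfl⟩)
  have h2 : v = p := sub_eq_zero.1 (inj _ h1)
  obtain ⟨_, ⟨w, rfl⟩, hw⟩ := (h2 ▸ hp : v ∈ icl {y : L | ∃ w, T w = y}) ε hε
  exact ⟨w, hw⟩

end Vale.Agent.P070Z.S5
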