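import Vale.Agent.P070ZA.Op

/-!
# Schur's lemma inside a model
-/

set_option linter.unusedSectionVars false

namespace Vale.Agent.P070Z.S5

open Vale.Agent.P129B

universe v

variable {N : Type v} [ZM N] {R K : Type*} [Nm K R] [Field R] [LinearOrder R]
  [IsStrictOrderedRing R] [Field K] [Algebra R K] [KA R K] [StarRing K] [CX R K]
  [Coded N R] [RF N R] [Coded N K] [KF N R K]
  {L : Type*} [AddCommGroup L] [Module K L] [Nm L R] [Ip L K] [IA R K L] [Coded N L] [HS N R K L]

include R K

variable (N K L) in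
/-- absolute values of self-adjoint operators exist -/
def Abs : Prop := ∀ X : Op N K L, star X = X → ∃ S : Op N K L,
  (∀ x, 0 ≤ KA.re (ip x (S x))) ∧ S * S = X * X ∧ ∀ Y, X * Y = Y * X → S * Y = Y * S

/-- `0` and the whole space are the only closed internal subspaces invariant under `F`. -/
def IrrF (F : Set (Op N K L)) : Prop :=
  ∀ V : Set L, IsISub N K V → Cld V → (∀ a ∈ F, ∀ x ∈ V, a x ∈ V) →
    (∀ x ∈ V, x = 0) ∨ ∀ x, x ∈ V

theorem isISub_ker (T : Op N K L) : IsISub N K {x : L | T x = 0} where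
  intl := intl_setOfT (by fun_prop)
  zero := map_zero T
  add x hx y hy := by
    simp only [Set.mem_ofPred_eq] at hx hy ⊢
    rw [map_add, hx, hy, add_zero]
  smul c x hx := by
    simp only [Set.mem_ofPred_eq] at hx ⊢
    rw [map_smul, hx, smul_zero]

theorem cld_ker (T : Op N K L) : Cld {x : L | T x = 0} := cld_eq_zero T.lip

/-- An operator in the commutant of an irreducible family is injective or zero. -/
theorem IrrF.inj {F : Set (Op N K L)} (h : IrrF F) {T : Op N K L}
    (hc : ∀ a ∈ F, T * a = a * T) : (∀ x, T x = 0 → x = 0) ∨ T = 0 := by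
  refine (h _ (isISub_ker T) (cld_ker T) fun a ha x hx => ?_).imp (fun H x hx => H x hx)
    fun H => Op.ext fun x => H x
  have h1 : (T * a) x = (a * T) x := by rw [hc a ha]
  simp only [Set.mem_ofPred_eq] at hx ⊢
  rwa [Op.mul_apply, Op.mul_apply, hx, map_zero] at h1

/-- A positive operator kills the vectors on which its form vanishes. -/
theorem pos_zero {X : Op N K L} (hX : star X = X) (pos : ∀ x, 0 ≤ KA.re (ip x (X x))) {x : L}
    (hx : KA.re (ip x (X x)) = 0) : X x = 0 := by
  have key : ∀ t : R, 0 ≤ KA.re (ip (X x) (X (X x))) * (t * t) + 2 * nm (X x) ^ 2 * t + 0 := by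
    intro t
    have h1 := pos (x + algebraMap R K t • X x)
    rw [map_add, map_smul, ip_add_left, ip_add_right, ip_add_right, ip_smul_left, ip_smul_left,
      ip_smul_right, ip_smul_right, star_ofR, ← ip_sa hX x (X x)] at h1
    simp only [map_add, KA.re_ofR_mul, re_ip_self, hx] at h1
    linarith
  have h2 := discrim_le_zero key
  rw [discrim] at h2
  have h3 : nm (X x) ^ 2 ≤ 0 := by nlinarith [sq_nonneg (nm (X x))]
  exact nm_eq_zero.1 (pow_eq_zero_iff two_ne_zero |>.1 (le_antisymm h3 (sq_nonneg _)))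

theorem schur_sa (habs : Abs N K L) {F : Set (Op N K L)} (h : IrrF F) {T : Op N K L}
    (hT : star T = T) (hc : ∀ a ∈ F, T * a = a * T) : ∃ c : K, T = c • (1 : Op N K L) := by
  by_cases h0 : ∀ x : L, x = 0
  · exact ⟨0, Op.ext fun x => (h0 _).trans (h0 _).symm⟩
  push Not at h0
  obtain ⟨y, hy⟩ := h0
  set x := algebraMap R K (nm y)⁻¹ • y with hxd
  have hx : nm x = 1 := nm_normalize hy
  set l : K := algebraMap R K (KA.re (ip x (T x))) with hl
  set X : Op N K L := T - l • 1 with hXd
  have hX : star X = X := by rw [hXd, star_sub, star_smul, star_one, hT, hl, star_ofR]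
  have hXc : ∀ a ∈ F, X * a = a * X := fun a ha => by
    rw [hXd, sub_mul, mul_sub, hc a ha, smul_mul_assoc, mul_smul_comm, one_mul, mul_one]
  have hx0 : KA.re (ip x (X x)) = 0 := by
    rw [hXd, Op.sub_apply, Op.smul_apply, Op.one_apply, ip_sub_right, ip_smul_right,
      ip_self_one hx, mul_one, map_sub, hl, KA.re_ofR, sub_self]
  obtain ⟨S, pos, sq, cm⟩ := habs X hX
  have hk : X x = 0 := by
    have h1 : (S - X) * (S + X) = 0 := by
      rw [sub_mul, mul_add, mul_add, sq, cm X rfl]; abel
    rcases h.inj (T := S - X) (fun a ha => by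
      rw [sub_mul, mul_sub, hXc a ha, cm a (hXc a ha)]) with H | H
    · have h2 : S = -X := eq_neg_of_add_eq_zero_left (Op.ext fun z => H _ (by
        rw [← Op.mul_apply, h1]; rfl))
      have h3 : (-X) x = 0 := pos_zero (by rw [star_neg, hX]) (h2 ▸ pos) (by
        rw [Op.neg_apply, ip_neg_right, map_neg, hx0, neg_zero])
      exact neg_eq_zero.1 h3
    · exact pos_zero hX (sub_eq_zero.1 H ▸ pos) hx0
  rcases h.inj hXc with H | H
  · have := H x hk
    rw [this, nm_zero] at hx
    exact absurd hx zero_ne_one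
  · exact ⟨l, sub_eq_zero.1 H⟩

/-- **Schur's lemma.** -/
theorem schur (habs : Abs N K L) {F : Set (Op N K L)} (h : IrrF F)
    (hF : ∀ a ∈ F, star a ∈ F) {T : Op N K L} (hc : ∀ a ∈ F, T * a = a * T) :
    ∃ c : K, T = c • (1 : Op N K L) := by
  have hc' : ∀ a ∈ F, star T * a = a * star T := fun a ha => by
    have := congrArg star (hc _ (hF a ha))
    rw [star_mul, star_mul, star_star] at this
    exact this.symm
  obtain ⟨r, hr⟩ := schur_sa habs h (T := T + star T) (by rw [star_add, star_star, add_comm])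
    fun a ha => by rw [add_mul, mul_add, hc a ha, hc' a ha]
  obtain ⟨s, hs⟩ := schur_sa habs h (T := (KA.I : K) • (T - star T)) (by
      rw [star_smul, star_sub, star_star, star_I, neg_smul, ← smul_neg, neg_sub])
    fun a ha => by rw [smul_mul_assoc, mul_smul_comm, sub_mul, mul_sub, hc a ha, hc' a ha]
  have h1 : T - star T = (-KA.I * s) • (1 : Op N K L) := by
    rw [mul_smul, ← hs, smul_smul, neg_mul, CX.I_mul, neg_neg, one_smul]
  refine ⟨(2 : K)⁻¹ * (r + -KA.I * s), ?_⟩
  rw [mul_smul, add_smul, ← hr, ← h1, eq_inv_smul_iff₀ two_ne_zero_K, two_smul]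
  abel

end Vale.Agent.P070Z.S5
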