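import Vale.Agent.P129BZ.Scal
import Vale.Agent.P129B.Real

/-!
# Step 5 of the Naimark construction: the algebra

Everything is stated for plain functions; no definability is needed here.
-/

set_option linter.unusedSectionVars false

namespace Vale.Agent.P070Z.S5

open Vale.Agent.P129B KA

variable {R : Type*} [Field R] [LinearOrder R] [IsStrictOrderedRing R]
  {K : Type*} [Field K] [Algebra R K] [Nm K R] [KA R K]
  {B : Type*} [Ring B] [Star B] [Module K B] [Nm B R]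
  {L : Type*} [AddCommGroup L] [Module K L] [Nm L R] [NA R K L]
  {M : Type*} [AddCommGroup M] [Module K M] [Nm M R] [NA R K M]

/-- `ρ` is a contractive action of the set `A` of elements of a star ring on a space with the
inner product `ip`. -/
structure Act (A : Set B) (ip : L → L → K) (ρ : B → L → L) : Prop where
  ip_sub : ∀ x y z, ip x (y - z) = ip x y - ip x z
  ip_smul : ∀ (c : K) x y, ip x (c • y) = c * ip x y
  ip_self : ∀ x, ip x x = algebraMap R K (nm x ^ 2)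
  cs : ∀ x y, nm (ip x y) ≤ nm x * nm y
  mul : ∀ a ∈ A, ∀ b ∈ A, ∀ z, ρ (a * b) z = ρ a (ρ b z)
  sub : ∀ a ∈ A, ∀ b ∈ A, ∀ z, ρ (a - b) z = ρ a z - ρ b z
  smul : ∀ (c : K), ∀ a ∈ A, ∀ z, ρ (c • a) z = c • ρ a z
  one : ∀ z, ρ 1 z = z
  adj : ∀ a ∈ A, ∀ x y, ip (ρ (star a) x) y = ip x (ρ a y)
  nm_le : ∀ a ∈ A, ∀ z, nm (ρ a z) ≤ nm a * nm z
  lin : ∀ a ∈ A, ∀ x y, ρ a (x - y) = ρ a x - ρ a y

/-- `A` is closed under the operations. -/
structure Sub (K : Type*) {B : Type*} [Field K] [Ring B] [Star B] [Module K B] (A : Set B) :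
    Prop where
  one : (1 : B) ∈ A
  mul : ∀ a ∈ A, ∀ b ∈ A, a * b ∈ A
  sub : ∀ a ∈ A, ∀ b ∈ A, a - b ∈ A
  smul : ∀ (c : K), ∀ a ∈ A, c • a ∈ A
  star : ∀ a ∈ A, star a ∈ A

/-- `f` is a self-adjoint cut-off for `k`. -/
structure Cut (A : Set B) (k f : B) : Prop where
  mem : f ∈ A
  sa : star f = f
  fac : ∃ g ∈ A, 1 - f = g * k

variable {A : Set B} {ip : L → L → K} {ρ : B → L → L} {jp : M → M → K} {P : B → M → M}

theorem Act.zero (h : Act A ip ρ) {a : B} (ha : a ∈ A) : ρ a 0 = 0 := by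
  have := h.lin a ha 0 0
  simpa using this

theorem Act.fix (h : Act A ip ρ) (hA : Sub K A) {k f : B} (hk : k ∈ A) (hf : Cut A k f) {z : L}
    (hz : ρ k z = 0) : ρ f z = z := by
  obtain ⟨g, hg, h1⟩ := hf.fac
  have h2 : ρ (1 - f) z = 0 := by rw [h1, h.mul g hg k hk, hz, h.zero hg]
  rw [h.sub 1 hA.one f hf.mem, h.one, sub_eq_zero] at h2
  exact h2.symm

theorem Act.move (h : Act A ip ρ) {k f : B} (hf : Cut A k f) (x y : L) :
    ip (ρ f x) y = ip x (ρ f y) := by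
  have := h.adj f hf.mem x y
  rwa [hf.sa] at this

/-- one cut-off: the basic estimate -/
theorem Act.det_le (h : Act A ip ρ) (hA : Sub K A) {k f x : B} (hk : k ∈ A) (hf : Cut A k f)
    (hx : x ∈ A) (c : K) {z w : L} (hz : ρ k z = 0) (hw : ρ k w = 0) :
    nm (ip w (ρ x z) - c * ip w z) ≤ nm (f * x * f - c • (f * f)) * (nm w * nm z) := by
  have ez := h.fix hA hk hf hz
  have ew := h.fix hA hk hf hw
  have m1 := hA.mul f hf.mem x hx
  have m2 := hA.mul _ m1 f hf.mem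
  have m3 := hA.mul f hf.mem f hf.mem
  have m4 := hA.smul c _ m3
  have h1 : ip w (ρ (f * x * f - c • (f * f)) z) = ip w (ρ x z) - c * ip w z := by
    rw [h.sub _ m2 _ m4, h.smul c _ m3, h.mul _ m1 f hf.mem, h.mul f hf.mem x hx,
      h.mul f hf.mem f hf.mem, ez, ez, h.ip_sub, h.ip_smul, ← h.move hf, ew]
  rw [← h1]
  refine (h.cs _ _).trans ?_
  have h2 := h.nm_le _ (hA.sub _ m2 _ m4) z
  calc nm w * nm (ρ (f * x * f - c • (f * f)) z)
      ≤ nm w * (nm (f * x * f - c • (f * f)) * nm z) :=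
        mul_le_mul_of_nonneg_left h2 (nm_nonneg _)
    _ = _ := by ring

/-- the determined constants are the same in every representation -/
theorem Act.det (h : Act A ip ρ) (hA : Sub K A) {k x : B} (hk : k ∈ A) (hx : x ∈ A) {c : K}
    (hc : ∀ ε : R, 0 < ε → ∃ f, Cut A k f ∧ nm (f * x * f - c • (f * f)) ≤ ε) {z w : L}
    (hz : ρ k z = 0) (hw : ρ k w = 0) : ip w (ρ x z) = c * ip w z := by
  refine eq_of_forall_nm_sub_le fun ε hε => ?_
  have h0 : 0 ≤ nm w * nm z := mul_nonneg (nm_nonneg _) (nm_nonneg _)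
  obtain ⟨f, hf, h1⟩ := hc (ε / (nm w * nm z + 1)) (by positivity)
  refine (h.det_le hA hk hf hx c hz hw).trans ?_
  refine (mul_le_mul_of_nonneg_right h1 h0).trans ?_
  rw [div_mul_eq_mul_div, div_le_iff₀ (by positivity)]
  nlinarith

theorem Act.ip_word (h : Act A ip ρ) (hA : Sub K A) {k f x : B} (hf : Cut A k f) (hx : x ∈ A)
    (z : L) : ip z (ρ (x * (f * f) * star x) z) =
      algebraMap R K (nm (ρ f (ρ (star x) z)) ^ 2) := by
  have m3 := hA.mul f hf.mem f hf.mem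
  rw [h.mul _ (hA.mul x hx _ m3) _ (hA.star x hx), h.mul x hx _ m3, h.mul f hf.mem f hf.mem,
    ← h.adj x hx, ← h.move hf, h.ip_self]

/-- the lower bound -/
theorem lower (h : Act A ip ρ) (hP : Act A jp P) (hA : Sub K A) {k0 f x : B} (hk0 : k0 ∈ A)
    (hf : Cut A k0 f) (hx : x ∈ A) {z1 z2 : M} (hz1 : P k0 z1 = 0) {η : L} {c : K}
    (e1 : jp z2 (P (x * (f * f) * star x) z2) = c * jp z2 z2)
    (e2 : ip η (ρ (x * (f * f) * star x) η) = c * ip η η) :
    nm (jp z2 (P x z1)) * nm η ≤ nm (ρ f (ρ (star x) η)) * (nm z2 * nm z1) := by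
  rw [hP.ip_word hA hf hx, hP.ip_self] at e1
  rw [h.ip_word hA hf hx, h.ip_self] at e2
  have e5 : nm (jp z2 (P x z1)) ≤ nm (P f (P (star x) z2)) * nm z1 := by
    have h2 : jp z2 (P x z1) = jp (P f (P (star x) z2)) z1 := by
      rw [hP.move hf, hP.fix hA hk0 hf hz1, hP.adj x hx]
    rw [h2]; exact hP.cs _ _
  have e6 : (nm (ρ f (ρ (star x) η)) * nm z2) ^ 2 = (nm (P f (P (star x) z2)) * nm η) ^ 2 := by
    refine ofR_inj (K := K) ?_
    rw [mul_pow, mul_pow, map_mul, map_mul, e1, e2]; ring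
  have e7 : nm (ρ f (ρ (star x) η)) * nm z2 = nm (P f (P (star x) z2)) * nm η :=
    (pow_left_inj₀ (mul_nonneg (nm_nonneg _) (nm_nonneg _))
      (mul_nonneg (nm_nonneg _) (nm_nonneg _)) two_ne_zero).1 e6
  calc nm (jp z2 (P x z1)) * nm η ≤ nm (P f (P (star x) z2)) * nm z1 * nm η :=
        mul_le_mul_of_nonneg_right e5 (nm_nonneg _)
    _ = nm (P f (P (star x) z2)) * nm η * nm z1 := by ring
    _ = _ := by rw [← e7]; ring

/-- Step 5: a representation with a vector killed by `k` has a vector killed by `k0`. -/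
theorem five (h : Act A ip ρ) (hP : Act A jp P) (hA : Sub K A) {k0 k : B} (hk0 : k0 ∈ A)
    (hk : k ∈ A)
    (cut : ∀ ε : R, 0 < ε → ∃ f, Cut A k0 f ∧ nm f ≤ 1 ∧ nm (f * k0) ≤ ε)
    (D : ∀ y ∈ A, ∃ c : K, (∀ z w, P k z = 0 → P k w = 0 → jp w (P y z) = c * jp w z) ∧
      ∀ ε : R, 0 < ε → ∃ f, Cut A k f ∧ nm (f * y * f - c • (f * f)) ≤ ε)
    (nI : ∃ x ∈ A, ∃ z1 z2, P k0 z1 = 0 ∧ P k z2 = 0 ∧ jp z2 (P x z1) ≠ 0)
    (dense : (∀ y, ρ k0 y = 0 → y = 0) → ∀ v, ∀ ε : R, 0 < ε → ∃ w, nm (v - ρ k0 w) ≤ ε)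
    {η : L} (hη : ρ k η = 0) (hη0 : η ≠ 0) : ∃ y, y ≠ 0 ∧ ρ k0 y = 0 := by
  obtain ⟨x, hx, z1, z2, hz1, hz2, hne⟩ := nI
  by_contra hcon
  have inj : ∀ y, ρ k0 y = 0 → y = 0 := fun y hy => by
    by_contra h0
    exact hcon ⟨y, h0, hy⟩
  have a1 : 0 < nm (jp z2 (P x z1)) * nm η := mul_pos (nm_pos_iff.2 hne) (nm_pos_iff.2 hη0)
  have a2 : 0 ≤ nm z2 * nm z1 := mul_nonneg (nm_nonneg _) (nm_nonneg _)
  set c0 := nm (jp z2 (P x z1)) * nm η with hc0
  set δ : R := c0 / (nm z2 * nm z1 + 1) / 2 with hδ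
  have hδ0 : 0 < δ := by positivity
  obtain ⟨w, hw⟩ := dense inj (ρ (star x) η) δ hδ0
  have a3 : 0 ≤ nm w := nm_nonneg _
  obtain ⟨f, hf, f1, f2⟩ := cut (δ / (nm w + 1)) (by positivity)
  have hy := hA.mul _ (hA.mul x hx _ (hA.mul f hf.mem f hf.mem)) _ (hA.star x hx)
  obtain ⟨c, c1, c2⟩ := D _ hy
  have low := lower h hP hA hk0 hf hx hz1 (c1 z2 z2 hz2 hz2) (h.det hA hk hy c2 hη hη)
  have up : nm (ρ f (ρ (star x) η)) ≤ δ + δ := by
    have h1 : ρ f (ρ (star x) η) = ρ f (ρ (star x) η - ρ k0 w) + ρ (f * k0) w := by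
      rw [h.lin f hf.mem, h.mul f hf.mem k0 hk0, sub_add_cancel]
    rw [h1]
    refine (nm_add_le _ _).trans (add_le_add ?_ ?_)
    · refine (h.nm_le f hf.mem _).trans ?_
      exact (mul_le_of_le_one_left (nm_nonneg _) f1).trans hw
    · refine (h.nm_le _ (hA.mul f hf.mem k0 hk0) _).trans ?_
      refine (mul_le_mul_of_nonneg_right f2 a3).trans ?_
      rw [div_mul_eq_mul_div, div_le_iff₀ (by positivity)]
      nlinarith
  have h3 : c0 ≤ (δ + δ) * (nm z2 * nm z1) := low.trans (mul_le_mul_of_nonneg_right up a2)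
  have h4 : (δ + δ) * (nm z2 * nm z1 + 1) = c0 := by
    rw [hδ]; field_simp; ring
  nlinarith

end Vale.Agent.P070Z.S5
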