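import Vale.Agent.P070ZA.Defs
import Vale.Agent.P070ZU.Ultra
import Vale.Agent.P070Z34.Neu
import Vale.Agent.P070ZS5.Core
import Vale.Agent.P070ZS5.Dense

/-!
# Step 5 of the Naimark construction inside a model
-/

set_option linter.unusedSectionVars false

namespace Vale.Agent.P070Z.S5

open Vale.Agent.P129B Vale.Agent.P070ZT

universe v

variable {N : Type v} [ZM N]
  {R K : Type*} [Nm K R] [Field R] [LinearOrder R] [IsStrictOrderedRing R]
  [Field K] [Algebra R K] [KA R K] [StarRing K] [CX R K] [Coded N R] [RF N R] [Coded N K]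
  [KF N R K] {H : Type*} [AddCommGroup H] [Module K H] [Nm H R] [Ip H K] [IA R K H] [Coded N H]
  [HS N R K H] {L : Type*} [AddCommGroup L] [Module K L] [Nm L R] [Ip L K] [IA R K L] [Coded N L]
  [HS N R K L] {M : Type*} [AddCommGroup M] [Module K M] [Nm M R] [Ip M K] [IA R K M] [Coded N M]
  [HS N R K M]

include R K

variable {A : Set (Op N K H)} {k k0 a : Op N K H}

theorem subOf (hA : CS N K A) : Sub K A := ⟨hA.one, hA.mul, hA.sub, hA.smul, hA.star⟩

theorem actOf {π : Op N K H → Op N K L} (hA : CS N K A) (h : URp A π) :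
    Act A (ip : L → L → K) (fun a z => π a z) where
  ip_sub := ip_sub_right
  ip_smul := ip_smul_right
  ip_self := ip_self
  cs := nm_ip_le
  mul _ ha _ hb z := h.toRp.mul_apply ha hb z
  sub _ ha _ hb z := by rw [h.toRp.sub hA ha hb, Op.sub_apply]
  smul c a ha z := by rw [h.smul c a ha, Op.smul_apply]
  one := h.one_apply
  adj _ ha x y := h.toRp.ip_star_left ha x y
  nm_le := h.bd
  lin a _ x y := map_sub (π a) x y

/-- one cut-off -/
theorem exists_cut (hA : CS N K A) (hk : k ∈ A) (pk : Pos k) {t : R} (ht : 0 < t) :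
    Cut A k (rinv (1 + algebraMap R K t • k)) ∧ nm (rinv (1 + algebraMap R K t • k)) ≤ 1 ∧
      t * nm (k * rinv (1 + algebraMap R K t • k)) ≤ 2 ∧
      t * nm (rinv (1 + algebraMap R K t • k) * k) ≤ 2 := by
  obtain ⟨y, h1, h2, h3, h4⟩ := exists_inv_of_re (x := 1 + algebraMap R K t • k) one_pos
    fun z => by
      rw [Op.add_apply, Op.one_apply, Op.smul_apply, ip_add_right, ip_smul_right, map_add,
        re_ip_self, KA.re_ofR_mul, one_mul]
      exact le_add_of_nonneg_right (mul_nonneg ht.le (pk.2 z))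
  rw [rinv_eq h1 h2]
  rw [inv_one] at h3
  have := hA.intl
  have hy : y ∈ A := h4 A hA.intl hA.cld hA.one (hA.add _ hA.one _ (hA.smul _ _ hk)) hA.add hA.mul
    fun r => hA.smul _
  have e1 : 1 - y = algebraMap R K t • (y * k) := by
    rw [← h1, mul_add, mul_one, add_sub_cancel_left, mul_smul_comm]
  have e2 : 1 - y = algebraMap R K t • (k * y) := by
    rw [← h2, add_mul, one_mul, add_sub_cancel_left, smul_mul_assoc]
  have e4 : nm (1 : Op N K H) ≤ 1 := Op.nm_one_le
  have e3 : nm (1 - y) ≤ 2 := by linarith [nm_sub_le 1 y]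
  have e5 : star (1 + algebraMap R K t • k) = 1 + algebraMap R K t • k := by
    rw [star_add, star_one, star_smul, star_ofR, pk.1]
  refine ⟨⟨hy, star_inv_eq (K := K) e5 h1, _, hA.smul (algebraMap R K t) y hy, ?_⟩, h3, ?_, ?_⟩
  · rw [e1, smul_mul_assoc]
  · rwa [← nm_ofR_smul_of_nonneg (K := K) ht.le, ← e2]
  · rwa [← nm_ofR_smul_of_nonneg (K := K) ht.le, ← e1]

/-- a definable sequence of cut-offs -/
theorem exists_cuts (hA : CS N K A) (hk : k ∈ A) (pk : Pos k) : ∃ e : NN N → Op N K H,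
    DefF N e ∧ (∀ n, Cut A k (e n)) ∧ (∀ n, nm (e n) ≤ 1) ∧
      ∀ ε : R, 0 < ε → ∃ m, ∀ n, m ≤ n → nm (k * e n) ≤ ε ∧ nm (e n * k) ≤ ε := by
  have h := fun n : NN N => exists_cut hA hk pk (ipow_pos (x := (2 : R)) two_pos n)
  refine ⟨fun n => rinv (1 + algebraMap R K (ipow (2 : R) n) • k), by fun_prop,
    fun n => (h n).1, fun n => (h n).2.1, fun ε hε => ?_⟩
  obtain ⟨m, hm⟩ := exists_hp_lt N (half_pos hε)
  have key : ∀ n, m ≤ n → ∀ r : R, ipow (2 : R) n * r ≤ 2 → r ≤ ε := fun n hn r hr => by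
    have h1 := mul_le_mul_of_nonneg_left hr (hp_pos (R := R) n).le
    rw [← mul_assoc, mul_comm (hp R n), two_ipow_mul_hp, one_mul] at h1
    linarith [hm n hn]
  exact ⟨m, fun n hn => ⟨key n hn _ (h n).2.2.1, key n hn _ (h n).2.2.2⟩⟩

variable {P : Op N K H → Op N K M} {π : Op N K H → Op N K L}

/-- a determined constant is seen by the cut-offs -/
theorem cut_of_detAt (hU : IsUltraRep P) (hP : URp Set.univ P) (hA : CS N K A) (hk : k ∈ A)
    (pk : Pos k) {c : K} (hc : DetAt P k a c) (ε : R) (hε : 0 < ε) :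
    ∃ f, Cut A k f ∧ nm (f * a * f - c • (f * f)) ≤ ε := by
  obtain ⟨e, de, ce, be, ne⟩ := exists_cuts hA hk pk
  obtain ⟨m, hm⟩ := hU.det (x := a) (c := c) (fun z => by
      rw [hP.toRp.sub cs_univ trivial trivial, hP.smul c 1 trivial, Op.sub_apply, Op.smul_apply,
        hP.one_apply]) de be (fun n => (ce n).sa)
    (fun ε hε => (ne ε hε).imp fun _ h n hn => (h n hn).1) hc hε
  exact ⟨e m, ce m, hm m le_rfl⟩

/-- **Determined constants are the same in every representation.** -/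
theorem det_transfer (hU : IsUltraRep P) (hP : URp Set.univ P) (hA : CS N K A) (hπ : URp A π)
    (hk : k ∈ A) (pk : Pos k) (ha : a ∈ A) {c : K} (hc : DetAt P k a c) : DetAt π k a c :=
  fun _ _ hz hw =>
    (actOf hA hπ).det (subOf hA) hk ha (cut_of_detAt hU hP hA hk pk hc) hz hw

theorem det_transfer' (hU : IsUltraRep P) (hP : URp Set.univ P) (hA : CS N K A) (hπ : URp A π)
    (hk : k ∈ A) (pk : Pos k) (hD : Det P k A) : Det π k A := fun x hx =>
  (hD x hx).imp fun _ hc => det_transfer hU hP hA hπ hk pk hx hc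

/-- **Step 5.** A representation with a vector killed by `k` has a vector killed by `k0`. -/
theorem step5 (hU : IsUltraRep P) (hP : URp Set.univ P) (hA : CS N K A) (hπ : URp A π)
    (hk0 : k0 ∈ A) (hk : k ∈ A) (p0 : Pos k0) (pk : Pos k) (hD : Det P k A)
    (nI : ¬ Ineq P k0 k A) {η : L} (hη : π k η = 0) (hη0 : η ≠ 0) :
    ∃ y : L, y ≠ 0 ∧ π k0 y = 0 := by
  refine five (actOf hA hπ) (actOf hA (hP.mono (Set.subset_univ A))) (subOf hA) hk0 hk
    (fun ε hε => ?_) (fun y hy => (hD y hy).imp fun c hc => ⟨hc, cut_of_detAt hU hP hA hk pk hc⟩)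
    ?_ (fun inj w ε hε => ?_) hη hη0
  · obtain ⟨e, -, ce, be, ne⟩ := exists_cuts hA hk0 p0
    obtain ⟨m, hm⟩ := ne ε hε
    exact ⟨e m, ce m, be m, (hm m le_rfl).2⟩
  · by_contra hc
    push Not at hc
    exact nI hc
  · exact (dense_range (π k0).defF (map_add _) (map_smul _)
      (ip_sa (by rw [← hπ.star k0 hk0, p0.1])) inj w hε).imp fun _ h => h.le

end Vale.Agent.P070Z.S5
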