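import Vale.Agent.P070ZD.Main
import Vale.Agent.P070ZS5.Step5

/-!
# The transfer row of the assembly
-/

namespace Vale.Agent.P070Z

open Vale.Agent.P129B

universe v

variable (N : Type v) [ZM N]
  (R K : Type v) [Nm K R] [Field R] [LinearOrder R] [IsStrictOrderedRing R]
  [Field K] [Algebra R K] [KA R K] [StarRing K] [CX R K] [Coded N R] [RF N R] [Coded N K]
  [KF N R K]

theorem five_row : FIVE N R K :=
  fun _ _ _ _ _ _ _ _ _ _ _ _ _ _ _ _ _ _ _ _ _ _ _ _ _ _ _ hP hU hA hπ =>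
    ⟨fun _ hk pk _ ha _ hc => S5.det_transfer hU hP hA hπ hk pk ha hc,
      fun _ hk0 _ hk p0 pk hD nI _ hη0 hη => S5.step5 hU hP hA hπ hk0 hk p0 pk hD nI hη hη0⟩

end Vale.Agent.P070Z
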