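import Vale.Agent.P070ZA.Defs
import Vale.Agent.P070Z56.Root
import Vale.Agent.P070ZS5.Schur

/-!
# Schur's lemma for irreducible representations
-/

set_option linter.unusedSectionVars false

namespace Vale.Agent.P070Z.S5

open Vale.Agent.P129B Vale.Agent.P070ZT

universe v

variable {N : Type v} [ZM N]
  {R K : Type*} [Nm K R] [Field R] [LinearOrder R] [IsStrictOrderedRing R]
  [Field K] [Algebra R K] [KA R K] [StarRing K] [CX R K] [Coded N R] [RF N R] [Coded N K]
  [KF N R K] {H : Type*} [AddCommGroup H] [Module K H] [Nm H R] [Ip H K] [IA R K H] [Coded N H]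
  [HS N R K H] {L : Type*} [AddCommGroup L] [Module K L] [Nm L R] [Ip L K] [IA R K L] [Coded N L]
  [HS N R K L]

include R K

theorem abs_holds : Abs N K L := fun X hX => by
  obtain ⟨S, -, h1, h2, -, h3, -⟩ := P070Z56.exists_abs_sa hX
  exact ⟨S, h2, h1, fun Y hY => (h3 Y hY.symm).symm⟩

/-- **Schur's lemma** for a family of operators. -/
theorem schur_fam {F : Set (Op N K L)} (h : IrrF F) (hF : ∀ a ∈ F, star a ∈ F) {T : Op N K L}
    (hc : ∀ a ∈ F, T * a = a * T) : ∃ c : K, T = c • (1 : Op N K L) :=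
  schur abs_holds h hF hc

/-- **Schur's lemma** for a representation. -/
theorem schur_irr {A : Set (Op N K H)} {π : Op N K H → Op N K L} (hA : ∀ a ∈ A, star a ∈ A)
    (hπ : Rp A π) (hi : Irr A π) {T : Op N K L} (hc : ∀ a ∈ A, T * π a = π a * T) :
    ∃ c : K, ∀ x, T x = c • x := by
  obtain ⟨c, rfl⟩ := schur_fam (F := π '' A) (T := T)
    (fun V hV cl hV' => hi V hV cl fun a ha => hV' _ ⟨a, ha, rfl⟩)
    (by rintro _ ⟨a, ha, rfl⟩; exact ⟨star a, hA a ha, hπ.star a ha⟩)
    (by rintro _ ⟨a, ha, rfl⟩; exact hc a ha)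
  exact ⟨c, fun _ => rfl⟩

end Vale.Agent.P070Z.S5
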